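import Vale.Agent.Helper21.P302Search

/-!
# P302: integral bounds for three pair-slot systems

For each system (slots `S`, positives `P`) we show that there are no `t` disjoint pairs of
positives sitting in `t` distinct slots with `p + q ≤ slot`, by running the verified search of
`P302Search` in the kernel.
-/

namespace Vale.Agent.Helper21.P302

/-- The 10-slot system (fractional value `8 + 49/36`). -/
def slots10 : List ℕ := [46, 48, 54, 62, 75, 82, 98, 167, 170, 177]

/-- Its 19 positives. -/
def pos10 : List ℕ :=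
  [3, 20, 22, 26, 27, 28, 29, 32, 41, 42, 43, 47, 80, 83, 85, 86, 88, 90, 91]

theorem no_nine_pairs (m : List (ℕ × ℕ × ℕ)) (hlen : m.length = 9)
    (hslots : (m.map (fun t => t.1)).Subperm slots10)
    (hpos : (m.flatMap (fun t => [t.2.1, t.2.2])).Subperm pos10)
    (hfit : ∀ t ∈ m, t.2.1 + t.2.2 ≤ t.1) : False :=
  no_pairs 9 pos10 slots10 (by decide) (by decide +kernel) m hlen hslots hpos hfit

/-- The 11-slot system (fractional value `9 + 25/18`). -/
def slots11 : List ℕ := [63, 68, 70, 79, 94, 96, 100, 121, 207, 210, 217]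

/-- Its 21 positives. -/
def pos11 : List ℕ :=
  [3, 6, 27, 35, 37, 37, 45, 47, 48, 49, 50, 51, 52, 53, 100, 103, 105, 106, 108, 110, 111]

theorem no_ten_pairs (m : List (ℕ × ℕ × ℕ)) (hlen : m.length = 10)
    (hslots : (m.map (fun t => t.1)).Subperm slots11)
    (hpos : (m.flatMap (fun t => [t.2.1, t.2.2])).Subperm pos11)
    (hfit : ∀ t ∈ m, t.2.1 + t.2.2 ≤ t.1) : False :=
  no_pairs 10 pos11 slots11 (by decide) (by decide +kernel) m hlen hslots hpos hfit

end Vale.Agent.Helper21.P302
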