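import Mathlib

namespace Vale.Agent.Helper21.P302

open Multiset

/-- The multiset of slots used by a matching (a multiset of triples `(slot, p, q)`). -/
def slotsOf (m : Multiset (ℕ × ℕ × ℕ)) : Multiset ℕ := m.map (fun t => t.1)

/-- The multiset of items used by a matching. -/
def itemsOf (m : Multiset (ℕ × ℕ × ℕ)) : Multiset ℕ :=
  m.map (fun t => t.2.1) + m.map (fun t => t.2.2)

/-- Every pair fits its slot. -/
def Fits (m : Multiset (ℕ × ℕ × ℕ)) : Prop := ∀ t ∈ m, t.2.1 + t.2.2 ≤ t.1

theorem slotsOf_cons (a : ℕ × ℕ × ℕ) (m : Multiset (ℕ × ℕ × ℕ)) :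
    slotsOf (a ::ₘ m) = a.1 ::ₘ slotsOf m := by
  simp [slotsOf]

theorem itemsOf_cons (a : ℕ × ℕ × ℕ) (m : Multiset (ℕ × ℕ × ℕ)) :
    itemsOf (a ::ₘ m) = a.2.1 ::ₘ a.2.2 ::ₘ itemsOf m := by
  simp only [itemsOf, map_cons, cons_add, add_cons]
  exact cons_swap _ _ _

theorem card_itemsOf (m : Multiset (ℕ × ℕ × ℕ)) : card (itemsOf m) = 2 * card m := by
  simp [itemsOf]; ring

theorem fits_cons {a : ℕ × ℕ × ℕ} {m : Multiset (ℕ × ℕ × ℕ)} :
    Fits (a ::ₘ m) ↔ a.2.1 + a.2.2 ≤ a.1 ∧ Fits m := by
  simp [Fits]

theorem mem_itemsOf {x : ℕ} {m : Multiset (ℕ × ℕ × ℕ)} :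
    x ∈ itemsOf m ↔ ∃ tr ∈ m, tr.2.1 = x ∨ tr.2.2 = x := by
  simp only [itemsOf, mem_add, mem_map]
  constructor
  · rintro (⟨tr, h, rfl⟩ | ⟨tr, h, rfl⟩)
    · exact ⟨tr, h, Or.inl rfl⟩
    · exact ⟨tr, h, Or.inr rfl⟩
  · rintro ⟨tr, h, (rfl | rfl)⟩
    · exact Or.inl ⟨tr, h, rfl⟩
    · exact Or.inr ⟨tr, h, rfl⟩

/-- Splitting off the triple that contains a given item. -/
theorem split_item {x : ℕ} {m : Multiset (ℕ × ℕ × ℕ)} (hf : Fits m) (hx : x ∈ itemsOf m) :
    ∃ (c p : ℕ) (m₁ : Multiset (ℕ × ℕ × ℕ)), Fits m₁ ∧ card m = card m₁ + 1 ∧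
      itemsOf m = x ::ₘ p ::ₘ itemsOf m₁ ∧ slotsOf m = c ::ₘ slotsOf m₁ ∧ x + p ≤ c := by
  obtain ⟨tr, htr, h⟩ := mem_itemsOf.1 hx
  have hm : tr ::ₘ m.erase tr = m := cons_erase htr
  have hf1 : Fits (m.erase tr) := fun t ht => hf t (mem_of_mem_erase ht)
  have hfit := hf tr htr
  have hcard : card m = card (m.erase tr) + 1 := by
    rw [← hm]; simp
  rcases h with h | h
  · refine ⟨tr.1, tr.2.2, m.erase tr, hf1, hcard, ?_, ?_, ?_⟩
    · rw [← hm, itemsOf_cons, h, hm]
    · rw [← hm, slotsOf_cons, hm]
    · rw [← h]; exact hfit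
  · refine ⟨tr.1, tr.2.1, m.erase tr, hf1, hcard, ?_, ?_, ?_⟩
    · rw [← hm, itemsOf_cons, h, hm, cons_swap]
    · rw [← hm, slotsOf_cons, hm]
    · rw [← h, add_comm]; exact hfit


/-- Replace an item of a matching by a smaller number. -/
theorem replace_item {a b : ℕ} {m : Multiset (ℕ × ℕ × ℕ)} (hf : Fits m) (ha : a ∈ itemsOf m)
    (hb : b ≤ a) :
    ∃ m' : Multiset (ℕ × ℕ × ℕ), Fits m' ∧ slotsOf m' = slotsOf m ∧ card m' = card m ∧
      itemsOf m' = b ::ₘ (itemsOf m).erase a := by
  obtain ⟨c, p, m₁, hf1, hcard, hit, hsl, hle⟩ := split_item hf ha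
  refine ⟨(c, b, p) ::ₘ m₁, ?_, ?_, ?_, ?_⟩
  · rw [fits_cons]; exact ⟨by simpa using by omega, hf1⟩
  · rw [slotsOf_cons, hsl]
  · rw [card_cons, hcard]
  · rw [itemsOf_cons, hit, erase_cons_head]

/-- If at least one of the items `x ::ₘ P'` is unused and `x` is the largest, then the matching
can be changed so that `x` is unused. -/
theorem drop_largest {x : ℕ} {P' : Multiset ℕ} {m : Multiset (ℕ × ℕ × ℕ)} (hf : Fits m)
    (hle : itemsOf m ≤ x ::ₘ P') (hx : ∀ z ∈ P', z ≤ x) (hc : card (itemsOf m) ≤ card P') :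
    ∃ m' : Multiset (ℕ × ℕ × ℕ), Fits m' ∧ slotsOf m' = slotsOf m ∧ card m' = card m ∧
      itemsOf m' ≤ P' := by
  by_cases h : itemsOf m ≤ P'
  · exact ⟨m, hf, rfl, rfl, h⟩
  · have hxm : x ∈ itemsOf m := by
      by_contra hx'
      exact h ((le_cons_of_notMem hx').1 hle)
    have hA : (itemsOf m).erase x ≤ P' := erase_le_iff_le_cons.2 hle
    have hcA : card ((itemsOf m).erase x) < card P' := by
      have := card_erase_add_one hxm
      omega
    -- pick an unused item
    have hne : P' - (itemsOf m).erase x ≠ 0 := by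
      intro h0
      have := congrArg card h0
      rw [card_sub hA] at this
      simp at this
      omega
    obtain ⟨z, hz⟩ := exists_mem_of_ne_zero hne
    have hzP : z ∈ P' := mem_of_le (Multiset.sub_le_self _ _) hz
    have hzle : z ::ₘ (itemsOf m).erase x ≤ P' := by
      have h1 : ({z} : Multiset ℕ) ≤ P' - (itemsOf m).erase x := singleton_le.2 hz
      have h2 := add_le_add_right h1 ((itemsOf m).erase x)
      rw [add_tsub_cancel_of_le hA] at h2
      simpa [add_comm] using h2
    obtain ⟨m', hf', hs', hc', hi'⟩ := replace_item hf hxm (hx z hzP)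
    exact ⟨m', hf', hs', hc', by rw [hi']; exact hzle⟩


/-- Normal form: a matching with `t` pairs whose items come from the descending list `P` can be
changed (keeping its slots) into one that uses exactly the `2 * t` smallest entries of `P`. -/
theorem normal_form : ∀ (P : List ℕ) (t : ℕ), P.Pairwise (· ≥ ·) →
    ∀ m : Multiset (ℕ × ℕ × ℕ), Fits m → card m = t → itemsOf m ≤ (P : Multiset ℕ) →
    ∃ m' : Multiset (ℕ × ℕ × ℕ), Fits m' ∧ slotsOf m' = slotsOf m ∧ card m' = t ∧
      itemsOf m' = ((P.drop (P.length - 2 * t) : List ℕ) : Multiset ℕ)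
  | [], t, _, m, hf, hc, hle => by
      refine ⟨m, hf, rfl, hc, ?_⟩
      have : itemsOf m = 0 := by simpa using hle
      simp [this]
  | x :: P', t, hP, m, hf, hc, hle => by
      have hcard : card (itemsOf m) = 2 * t := by rw [card_itemsOf, hc]
      by_cases hlen : P'.length + 1 ≤ 2 * t
      · refine ⟨m, hf, rfl, hc, ?_⟩
        have h0 : (x :: P').length - 2 * t = 0 := by simp; omega
        rw [h0, List.drop_zero]
        refine eq_of_le_of_card_le hle ?_
        rw [hcard]; simp; omega
      · have hlen' : 2 * t ≤ P'.length := by omega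
        rw [List.pairwise_cons] at hP
        have hle' : itemsOf m ≤ x ::ₘ (P' : Multiset ℕ) := by simpa using hle
        obtain ⟨m₁, hf₁, hs₁, hc₁, hi₁⟩ := drop_largest hf hle'
          (fun z hz => hP.1 z (by simpa using hz)) (by rw [hcard]; simpa using hlen')
        obtain ⟨m₂, hf₂, hs₂, hc₂, hi₂⟩ := normal_form P' t hP.2 m₁ hf₁ (hc₁.trans hc) hi₁
        refine ⟨m₂, hf₂, hs₂.trans hs₁, hc₂, ?_⟩
        have h1 : (x :: P').length - 2 * t = (P'.length - 2 * t) + 1 := by simp; omega
        rw [h1, List.drop_succ_cons]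
        exact hi₂

/-- The search: `srch t P S` looks for a perfect matching of the `2 * t` items `P` (listed in
descending order) into slots from `S`. The largest item is tried in every slot; its partner is
always the largest remaining item that fits together with it. -/
def srch : ℕ → List ℕ → List ℕ → Bool
  | 0, _, _ => true
  | _ + 1, [], _ => false
  | t + 1, x :: rest, S =>
      S.any fun c =>
        match rest.find? (fun y => decide (x + y ≤ c)) with
        | none => false
        | some y => srch t (rest.erase y) (S.erase c)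

/-- Completeness of the search (exchange argument). -/
theorem srch_complete : ∀ (t : ℕ) (P S : List ℕ), P.Pairwise (· ≥ ·) →
    ∀ m : Multiset (ℕ × ℕ × ℕ), card m = t → Fits m → slotsOf m ≤ (S : Multiset ℕ) →
    itemsOf m = (P : Multiset ℕ) → srch t P S = true
  | 0, _, _, _, _, _, _, _, _ => rfl
  | t + 1, [], S, _, m, hc, _, _, hi => by
      have := congrArg card hi
      rw [card_itemsOf, hc] at this
      simp at this
  | t + 1, x :: rest, S, hP, m, hc, hf, hs, hi => by
      rw [List.pairwise_cons] at hP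
      have hxm : x ∈ itemsOf m := by rw [hi]; simp
      obtain ⟨c, p, m₁, hf₁, hcard₁, hit₁, hsl₁, hle₁⟩ := split_item hf hxm
      have hc₁ : card m₁ = t := by omega
      -- the partner `p` lies in `rest`
      have hrest : p ::ₘ itemsOf m₁ = (rest : Multiset ℕ) := by
        have : x ::ₘ p ::ₘ itemsOf m₁ = x ::ₘ (rest : Multiset ℕ) := by
          rw [← hit₁, hi]; rfl
        exact (cons_inj_right x).1 this
      have hp : p ∈ rest := by
        have : p ∈ (rest : Multiset ℕ) := by rw [← hrest]; exact mem_cons_self _ _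
        simpa using this
      have hcS : c ∈ S := by
        have : c ∈ (S : Multiset ℕ) := mem_of_le hs (by rw [hsl₁]; exact mem_cons_self _ _)
        simpa using this
      have hs₁ : slotsOf m₁ ≤ ((S.erase c : List ℕ) : Multiset ℕ) := by
        have := erase_le_erase c hs
        rw [hsl₁, erase_cons_head] at this
        simpa using this
      -- the partner chosen by the search
      have hex : ∃ y, rest.find? (fun y => decide (x + y ≤ c)) = some y := by
        cases hfind : rest.find? (fun y => decide (x + y ≤ c)) with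
        | none =>
            rw [List.find?_eq_none] at hfind
            exact absurd (by simpa using hle₁) (hfind p hp)
        | some y => exact ⟨y, rfl⟩
      obtain ⟨y, hy⟩ := hex
      have hyfit : x + y ≤ c := by simpa using List.find?_some hy
      have hyrest : y ∈ rest := List.mem_of_find?_eq_some hy
      have hpy : p ≤ y := by
        obtain ⟨_, as, bs, hl, has⟩ := List.find?_eq_some_iff_append.1 hy
        have hp' : p ∈ as ++ y :: bs := hl ▸ hp
        rcases List.mem_append.1 hp' with h | h
        · have := has p h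
          simp at this
          omega
        · rcases List.mem_cons.1 h with h | h
          · exact h.le
          · have hpw : (as ++ y :: bs).Pairwise (· ≥ ·) := hl ▸ hP.2
            rw [List.pairwise_append] at hpw
            exact (List.pairwise_cons.1 hpw.2.1).1 p h
      have hpw' : (rest.erase y).Pairwise (· ≥ ·) := hP.2.sublist (List.erase_sublist)
      -- a perfect matching of the remaining items into the remaining slots
      have key : ∃ m' : Multiset (ℕ × ℕ × ℕ), card m' = t ∧ Fits m' ∧
          slotsOf m' ≤ ((S.erase c : List ℕ) : Multiset ℕ) ∧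
          itemsOf m' = ((rest.erase y : List ℕ) : Multiset ℕ) := by
        by_cases hpy' : p = y
        · refine ⟨m₁, hc₁, hf₁, hs₁, ?_⟩
          rw [← coe_erase, ← hrest, hpy', erase_cons_head]
        · have hym : y ∈ itemsOf m₁ := by
            have : y ∈ p ::ₘ itemsOf m₁ := by rw [hrest]; simpa using hyrest
            rcases mem_cons.1 this with h | h
            · exact absurd h.symm hpy'
            · exact h
          obtain ⟨c₂, q, m₂, hf₂, hcard₂, hit₂, hsl₂, hle₂⟩ := split_item hf₁ hym
          refine ⟨(c₂, p, q) ::ₘ m₂, ?_, ?_, ?_, ?_⟩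
          · rw [card_cons]; omega
          · rw [fits_cons]; exact ⟨by simpa using by omega, hf₂⟩
          · rw [slotsOf_cons, ← hsl₂]; exact hs₁
          · rw [itemsOf_cons, ← coe_erase, ← hrest, hit₂, erase_cons_tail _ hpy',
              erase_cons_head]
      obtain ⟨m', hc', hf', hs', hi'⟩ := key
      have ih := srch_complete t (rest.erase y) (S.erase c) hpw' m' hc' hf' hs' hi'
      show (S.any fun c =>
        match rest.find? (fun y => decide (x + y ≤ c)) with
        | none => false
        | some y => srch t (rest.erase y) (S.erase c)) = true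
      rw [List.any_eq_true]
      exact ⟨c, hcS, by rw [hy]; exact ih⟩


/-- No matching with `t` pairs exists as soon as the search fails on the `2 * t` smallest
items. The list `P` of all items must be in descending order. -/
theorem no_matching (t : ℕ) (P S : List ℕ) (hP : P.Pairwise (· ≥ ·))
    (hs : srch t (P.drop (P.length - 2 * t)) S = false)
    (m : Multiset (ℕ × ℕ × ℕ)) (hc : card m = t) (hf : Fits m)
    (hS : slotsOf m ≤ (S : Multiset ℕ)) (hI : itemsOf m ≤ (P : Multiset ℕ)) : False := by
  obtain ⟨m', hf', hs', hc', hi'⟩ := normal_form P t hP m hf hc hI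
  have := srch_complete t (P.drop (P.length - 2 * t)) S
    (hP.sublist (List.drop_sublist _ _)) m' hc' hf' (hs' ▸ hS) hi'
  rw [hs] at this
  exact Bool.false_ne_true this

theorem itemsOf_coe (m : List (ℕ × ℕ × ℕ)) :
    itemsOf (m : Multiset (ℕ × ℕ × ℕ)) =
      ((m.flatMap (fun t => [t.2.1, t.2.2]) : List ℕ) : Multiset ℕ) := by
  induction m with
  | nil => simp [itemsOf]
  | cons a m ih =>
      rw [← cons_coe, itemsOf_cons, ih]
      simp

/-- List form: there are no `t` pairs `(slot, p, q)` with distinct slots from `S`, distinct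
items from `P` and `p + q ≤ slot`, as soon as the search fails. -/
theorem no_pairs (t : ℕ) (P S : List ℕ) (hP : P.reverse.Pairwise (· ≥ ·))
    (hs : srch t (P.reverse.drop (P.reverse.length - 2 * t)) S = false)
    (m : List (ℕ × ℕ × ℕ)) (hlen : m.length = t)
    (hslots : (m.map (fun t => t.1)).Subperm S)
    (hpos : (m.flatMap (fun t => [t.2.1, t.2.2])).Subperm P)
    (hfit : ∀ t ∈ m, t.2.1 + t.2.2 ≤ t.1) : False := by
  refine no_matching t P.reverse S hP hs (m : Multiset (ℕ × ℕ × ℕ)) (by simpa using hlen)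
    (fun t ht => hfit t (by simpa using ht)) ?_ ?_
  · show ((m.map (fun t => t.1) : List ℕ) : Multiset ℕ) ≤ (S : Multiset ℕ)
    exact coe_le.2 hslots
  · rw [itemsOf_coe, coe_reverse]
    exact coe_le.2 hpos

end Vale.Agent.Helper21.P302
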