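import Mathlib

/-!
Boolean cube `{-1,1}^n` and average sensitivity (total influence) of Boolean functions,
in the conventions of problem P311.
-/

namespace Vale.Agent.Helper21.PTF

/-- The Boolean cube `{-1,1}^n`: sign vectors, the two units of `ℤ` being `1` and `-1`. -/
abbrev Cube (n : ℕ) : Type := Fin n → ℤˣ

/-- `x` with coordinate `i` negated. -/
def negAt {n : ℕ} (i : Fin n) (x : Cube n) : Cube n := Function.update x i (-(x i))

/-- Average sensitivity (total influence) of a Boolean function on the cube:
the sum over coordinates `i` of the probability, for `x` uniform on the cube,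
that `f x` differs from `f` at `x` with coordinate `i` negated. -/
noncomputable def avgSens {n : ℕ} (f : Cube n → Bool) : ℝ :=
  ∑ i : Fin n, ((Finset.univ.filter (fun x : Cube n => f x ≠ f (negAt i x))).card : ℝ) / 2 ^ n

end Vale.Agent.Helper21.PTF
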