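import Mathlib
import Vale.Agent.Helper21.PTFDefs

namespace Vale.Agent.Helper21.PTF

open Finset

/-- number of points where `f` changes under translation by `u` -/
noncomputable def infl {n : ℕ} (f : Cube n → Bool) (u : Cube n) : ℕ :=
  (Finset.univ.filter (fun x : Cube n => f x ≠ f (x * u))).card

/-- the unit vector negating coordinate `i` -/
def eFlip {n : ℕ} (i : Fin n) : Cube n := Pi.mulSingle i (-1 : ℤˣ)

lemma flip_eq_mul {n : ℕ} (i : Fin n) (x : Cube n) : negAt i x = x * eFlip i := by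
  funext j
  by_cases h : j = i
  · subst h
    simp [negAt, eFlip]
  · simp [negAt, eFlip, Function.update_of_ne h, Pi.mulSingle_eq_of_ne h]

lemma avgSens_eq {n : ℕ} (f : Cube n → Bool) :
    avgSens f = (∑ i : Fin n, (infl f (eFlip i) : ℝ)) / 2 ^ n := by
  unfold avgSens infl
  rw [Finset.sum_div]
  refine Finset.sum_congr rfl (fun i _ => ?_)
  simp only [flip_eq_mul]

lemma cube_mul_self {n : ℕ} (u : Cube n) : u * u = 1 := by
  funext j
  simp [Int.units_mul_self]

lemma infl_one {n : ℕ} (f : Cube n → Bool) : infl f 1 = 0 := by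
  simp [infl]

lemma infl_mul_le {n : ℕ} (f : Cube n → Bool) (u v : Cube n) :
    infl f (u * v) ≤ infl f u + infl f v := by
  unfold infl
  have h1 : (Finset.univ.filter (fun x : Cube n => f x ≠ f (x * (u * v)))) ⊆
      (Finset.univ.filter (fun x : Cube n => f x ≠ f (x * u))) ∪
      (Finset.univ.filter (fun x : Cube n => f (x * u) ≠ f (x * u * v))) := by
    intro x hx
    simp only [Finset.mem_filter, Finset.mem_univ, true_and, Finset.mem_union] at hx ⊢
    by_contra hcon
    push Not at hcon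
    apply hx
    rw [hcon.1, hcon.2, mul_assoc]
  have h2 : (Finset.univ.filter (fun x : Cube n => f (x * u) ≠ f (x * u * v))).card =
      (Finset.univ.filter (fun x : Cube n => f x ≠ f (x * v))).card := by
    apply Finset.card_bij (fun x _ => x * u)
    · intro x hx
      simp only [Finset.mem_filter, Finset.mem_univ, true_and] at hx ⊢
      exact hx
    · intro x _ y _ hxy
      exact mul_right_cancel hxy
    · intro y hy
      refine ⟨y * u, ?_, ?_⟩
      · simp only [Finset.mem_filter, Finset.mem_univ, true_and] at hy ⊢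
        rw [mul_assoc, cube_mul_self, mul_one]
        exact hy
      · rw [mul_assoc, cube_mul_self, mul_one]
  calc _ ≤ _ := Finset.card_le_card h1
    _ ≤ _ := Finset.card_union_le _ _
    _ = _ := by rw [h2]

lemma infl_prod_le {n : ℕ} {ι : Type*} (f : Cube n → Bool) (T : Finset ι) (u : ι → Cube n) :
    infl f (∏ t ∈ T, u t) ≤ ∑ t ∈ T, infl f (u t) := by
  classical
  induction T using Finset.induction_on with
  | empty => simp [infl_one]
  | insert a s ha ih =>
    rw [Finset.prod_insert ha, Finset.sum_insert ha]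
    exact (infl_mul_le f _ _).trans (Nat.add_le_add_left ih _)

/-- the character (monomial) `∏ i ∈ S, x i` as a real number -/
def chi {n : ℕ} (S : Finset (Fin n)) (x : Cube n) : ℝ := ∏ i ∈ S, ((x i : ℤ) : ℝ)

lemma chi_mul {n : ℕ} (S : Finset (Fin n)) (x u : Cube n) :
    chi S (x * u) = chi S x * chi S u := by
  simp [chi, Finset.prod_mul_distrib]

lemma unit_cast_sq (a : ℤˣ) : ((a : ℤ) : ℝ) * ((a : ℤ) : ℝ) = 1 := by
  rcases Int.units_eq_one_or a with h | h <;> simp [h]

lemma chi_sq {n : ℕ} (S : Finset (Fin n)) (x : Cube n) : chi S x * chi S x = 1 := by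
  unfold chi
  rw [← Finset.prod_mul_distrib]
  exact Finset.prod_eq_one (fun i _ => unit_cast_sq _)

lemma chi_eq_one_or {n : ℕ} (S : Finset (Fin n)) (x : Cube n) : chi S x = 1 ∨ chi S x = -1 := by
  have h := chi_sq S x
  have : (chi S x - 1) * (chi S x + 1) = 0 := by ring_nf; ring_nf at h; linarith
  rcases mul_eq_zero.mp this with h1 | h1
  · left; linarith
  · right; linarith

lemma chi_eFlip {n : ℕ} (S : Finset (Fin n)) (i : Fin n) :
    chi S (eFlip i) = if i ∈ S then -1 else 1 := by
  classical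
  unfold chi eFlip
  have : ∀ j ∈ S, (((Pi.mulSingle i (-1 : ℤˣ) : Cube n) j : ℤ) : ℝ) = if j = i then -1 else 1 := by
    intro j _
    by_cases h : j = i
    · subst h; simp
    · simp [Pi.mulSingle_eq_of_ne h, h]
  rw [Finset.prod_congr rfl this, Finset.prod_ite_eq']

lemma chi_one {n : ℕ} (S : Finset (Fin n)) : chi S (1 : Cube n) = 1 := by
  simp [chi]

lemma chi_prod {n : ℕ} {ι : Type*} (S : Finset (Fin n)) (T : Finset ι) (u : ι → Cube n) :
    chi S (∏ t ∈ T, u t) = ∏ t ∈ T, chi S (u t) := by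
  classical
  induction T using Finset.induction_on with
  | empty => simp [chi_one]
  | insert a s ha ih => rw [Finset.prod_insert ha, Finset.prod_insert ha, chi_mul, ih]

lemma sum_chi_mul_chi {n : ℕ} (S T : Finset (Fin n)) :
    ∑ x : Cube n, chi S x * chi T x = if S = T then (2 : ℝ) ^ n else 0 := by
  classical
  by_cases h : S = T
  · subst h
    simp only [chi_sq, if_true]
    simp [Finset.card_univ, Fintype.card_pi]
  · rw [if_neg h]
    obtain ⟨i, hi⟩ : ∃ i, ¬ (i ∈ S ↔ i ∈ T) := by
      by_contra hcon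
      push Not at hcon
      exact h (Finset.ext hcon)
    have key : ∑ x : Cube n, chi S x * chi T x = - ∑ x : Cube n, chi S x * chi T x := by
      calc ∑ x : Cube n, chi S x * chi T x
          = ∑ x : Cube n, chi S (x * eFlip i) * chi T (x * eFlip i) :=
            (Equiv.sum_comp (Equiv.mulRight (eFlip i)) (fun x => chi S x * chi T x)).symm
        _ = ∑ x : Cube n, -(chi S x * chi T x) := by
            refine Finset.sum_congr rfl (fun x _ => ?_)
            rw [chi_mul, chi_mul, chi_eFlip, chi_eFlip]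
            by_cases h1 : i ∈ S <;> by_cases h2 : i ∈ T <;> simp [h1, h2] at hi ⊢
        _ = _ := by rw [Finset.sum_neg_distrib]
    linarith

/-- the real sign version of a Boolean function -/
def sgnF {n : ℕ} (f : Cube n → Bool) (x : Cube n) : ℝ := if f x then 1 else -1

lemma sgnF_sq {n : ℕ} (f : Cube n → Bool) (x : Cube n) : sgnF f x * sgnF f x = 1 := by
  unfold sgnF; split_ifs <;> norm_num

/-- Key identity: if `f` is monotone along the translation `u` with respect to the
character `chi S` (which `u` negates), the number of sensitive points equals a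
signed correlation. -/
lemma infl_eq_corr {n : ℕ} (f : Cube n → Bool) (S : Finset (Fin n)) (u : Cube n) (ε : ℝ)
    (hε : ε = 1 ∨ ε = -1) (hu : chi S u = -1)
    (hmono : ∀ x : Cube n, chi S x = ε → f (x * u) = true → f x = true) :
    (infl f u : ℝ) = ε * ∑ x : Cube n, sgnF f x * chi S x := by
  classical
  have hpt : ∀ x : Cube n, (if f x ≠ f (x * u) then (2 : ℝ) else 0) =
      (sgnF f x - sgnF f (x * u)) * (ε * chi S x) := by
    intro x
    have hxu : chi S (x * u) = - chi S x := by rw [chi_mul, hu]; ring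
    rcases chi_eq_one_or S x with hx | hx
    · rcases hε with he | he
      · have hm := hmono x (by rw [hx, he])
        unfold sgnF
        cases h1 : f x <;> cases h2 : f (x * u) <;> simp_all <;> norm_num
      · have hm := hmono (x * u) (by rw [hxu, hx, he])
        rw [mul_assoc, cube_mul_self, mul_one] at hm
        unfold sgnF
        cases h1 : f x <;> cases h2 : f (x * u) <;> simp_all <;> norm_num
    · rcases hε with he | he
      · have hm := hmono (x * u) (by rw [hxu, hx, he]; norm_num)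
        rw [mul_assoc, cube_mul_self, mul_one] at hm
        unfold sgnF
        cases h1 : f x <;> cases h2 : f (x * u) <;> simp_all <;> norm_num
      · have hm := hmono x (by rw [hx, he])
        unfold sgnF
        cases h1 : f x <;> cases h2 : f (x * u) <;> simp_all <;> norm_num
  have hsum : (2 : ℝ) * (infl f u : ℝ) = ∑ x : Cube n, (if f x ≠ f (x * u) then (2 : ℝ) else 0) := by
    unfold infl
    rw [Finset.sum_ite, Finset.sum_const_zero, add_zero, Finset.sum_const, nsmul_eq_mul]
    ring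
  have hshift : ∑ x : Cube n, sgnF f (x * u) * chi S x = - ∑ x : Cube n, sgnF f x * chi S x := by
    calc ∑ x : Cube n, sgnF f (x * u) * chi S x
        = ∑ x : Cube n, sgnF f (x * u * u) * chi S (x * u) :=
          (Equiv.sum_comp (Equiv.mulRight u) (fun x => sgnF f (x * u) * chi S x)).symm
      _ = ∑ x : Cube n, -(sgnF f x * chi S x) := by
          refine Finset.sum_congr rfl (fun x _ => ?_)
          rw [mul_assoc x u u, cube_mul_self, mul_one, chi_mul, hu]; ring
      _ = _ := by rw [Finset.sum_neg_distrib]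
  have h2 : (2 : ℝ) * (infl f u : ℝ) = 2 * (ε * ∑ x : Cube n, sgnF f x * chi S x) := by
    rw [hsum, Finset.sum_congr rfl (fun x _ => hpt x)]
    have : ∑ x : Cube n, (sgnF f x - sgnF f (x * u)) * (ε * chi S x)
        = ε * (∑ x : Cube n, sgnF f x * chi S x - ∑ x : Cube n, sgnF f (x * u) * chi S x) := by
      rw [← Finset.sum_sub_distrib, Finset.mul_sum]
      refine Finset.sum_congr rfl (fun x _ => ?_)
      ring
    rw [this, hshift]; ring
  linarith

/-- Bessel-type bound: a family of distinct characters along which `f` is monotone. -/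
lemma sum_infl_le_sqrt {n : ℕ} {ι : Type*} (f : Cube n → Bool) (𝒯 : Finset ι)
    (S : ι → Finset (Fin n)) (hS : Set.InjOn S (𝒯 : Set ι))
    (u : ι → Cube n) (ε : ι → ℝ)
    (hε : ∀ a ∈ 𝒯, ε a = 1 ∨ ε a = -1) (hu : ∀ a ∈ 𝒯, chi (S a) (u a) = -1)
    (hmono : ∀ a ∈ 𝒯, ∀ x : Cube n, chi (S a) x = ε a → f (x * u a) = true → f x = true) :
    (∑ a ∈ 𝒯, (infl f (u a) : ℝ)) ≤ 2 ^ n * Real.sqrt 𝒯.card := by
  classical
  set φ : Cube n → ℝ := fun x => ∑ a ∈ 𝒯, ε a * chi (S a) x with hφ
  have h1 : (∑ a ∈ 𝒯, (infl f (u a) : ℝ)) = ∑ x : Cube n, sgnF f x * φ x := by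
    rw [Finset.sum_congr rfl (fun a ha => infl_eq_corr f (S a) (u a) (ε a) (hε a ha) (hu a ha)
      (hmono a ha))]
    simp only [hφ, Finset.mul_sum]
    rw [Finset.sum_comm]
    refine Finset.sum_congr rfl (fun x _ => Finset.sum_congr rfl (fun a _ => ?_))
    ring
  have h2 : (∑ x : Cube n, sgnF f x * φ x) ^ 2 ≤
      (∑ x : Cube n, sgnF f x ^ 2) * (∑ x : Cube n, φ x ^ 2) :=
    Finset.sum_mul_sq_le_sq_mul_sq _ _ _
  have h3 : (∑ x : Cube n, sgnF f x ^ 2) = 2 ^ n := by
    simp [pow_two, sgnF_sq, Finset.card_univ, Fintype.card_pi]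
  have h4 : (∑ x : Cube n, φ x ^ 2) = 2 ^ n * 𝒯.card := by
    have : ∀ x : Cube n, φ x ^ 2 =
        ∑ a ∈ 𝒯, ∑ b ∈ 𝒯, ε a * ε b * (chi (S a) x * chi (S b) x) := by
      intro x
      simp only [hφ, pow_two, Finset.sum_mul_sum]
      refine Finset.sum_congr rfl (fun a _ => Finset.sum_congr rfl (fun b _ => ?_))
      ring
    rw [Finset.sum_congr rfl (fun x _ => this x), Finset.sum_comm]
    have : ∀ a ∈ 𝒯, ∑ x : Cube n, ∑ b ∈ 𝒯, ε a * ε b * (chi (S a) x * chi (S b) x) = 2 ^ n := by
      intro a ha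
      rw [Finset.sum_comm]
      have : ∀ b ∈ 𝒯, ∑ x : Cube n, ε a * ε b * (chi (S a) x * chi (S b) x)
          = if a = b then ε a * ε a * 2 ^ n else 0 := by
        intro b hb
        rw [← Finset.mul_sum, sum_chi_mul_chi]
        by_cases h : a = b
        · subst h; simp
        · have : S a ≠ S b := fun hab => h (hS ha hb hab)
          simp [h, this]
      rw [Finset.sum_congr rfl this, Finset.sum_ite_eq, if_pos ha]
      rcases hε a ha with h | h <;> rw [h] <;> ring
    rw [Finset.sum_congr rfl this, Finset.sum_const, nsmul_eq_mul]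
    ring
  rw [h1]
  have h5 : (∑ x : Cube n, sgnF f x * φ x) ^ 2 ≤ (2 ^ n * Real.sqrt 𝒯.card) ^ 2 := by
    rw [mul_pow, Real.sq_sqrt (Nat.cast_nonneg _)]
    calc _ ≤ _ := h2
      _ = _ := by rw [h3, h4]; ring
  exact le_of_sq_le_sq h5 (by positivity)

lemma chi_singleton {n : ℕ} (i : Fin n) (x : Cube n) : chi {i} x = ((x i : ℤ) : ℝ) := by
  simp [chi]

/-- A Boolean function that is unate (monotone in each coordinate, in some direction)
has average sensitivity at most `√n`. -/
lemma avgSens_le_sqrt_of_unate {n : ℕ} (f : Cube n → Bool) (ε : Fin n → ℝ)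
    (hε : ∀ i, ε i = 1 ∨ ε i = -1)
    (hmono : ∀ (i : Fin n) (x : Cube n), ((x i : ℤ) : ℝ) = ε i → f (negAt i x) = true → f x = true) :
    avgSens f ≤ Real.sqrt n := by
  classical
  rw [avgSens_eq]
  have h := sum_infl_le_sqrt f (Finset.univ : Finset (Fin n)) (fun i => ({i} : Finset (Fin n)))
    (fun a _ b _ hab => Finset.singleton_injective hab) eFlip ε (fun i _ => hε i)
    (fun i _ => by rw [chi_eFlip]; simp)
    (fun i _ x hx hfx => hmono i x (by rw [← chi_singleton]; exact hx)
      (by rw [flip_eq_mul]; exact hfx))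
  rw [Finset.card_univ, Fintype.card_fin] at h
  rw [div_le_iff₀ (by positivity)]
  linarith

lemma sum_sgnF_sq {n : ℕ} (f : Cube n → Bool) : (∑ x : Cube n, sgnF f x ^ 2) = 2 ^ n := by
  simp [pow_two, sgnF_sq, Finset.card_univ, Fintype.card_pi]

/-- Parseval for a combination of distinct characters. -/
lemma sum_sq_chi_comb {n : ℕ} (𝒮 : Finset (Finset (Fin n))) (b : Finset (Fin n) → ℝ) :
    ∑ x : Cube n, (∑ S ∈ 𝒮, b S * chi S x) ^ 2 = 2 ^ n * ∑ S ∈ 𝒮, (b S) ^ 2 := by
  classical
  have h1 : ∀ x : Cube n, (∑ S ∈ 𝒮, b S * chi S x) ^ 2 = ∑ S ∈ 𝒮, ∑ T ∈ 𝒮,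
      b S * b T * (chi S x * chi T x) := by
    intro x
    simp only [pow_two, Finset.sum_mul_sum]
    refine Finset.sum_congr rfl (fun S _ => Finset.sum_congr rfl (fun T _ => ?_))
    ring
  rw [Finset.sum_congr rfl (fun x _ => h1 x), Finset.sum_comm, Finset.mul_sum]
  refine Finset.sum_congr rfl (fun S hS => ?_)
  rw [Finset.sum_comm]
  have h2 : ∀ T ∈ 𝒮, ∑ x : Cube n, b S * b T * (chi S x * chi T x)
      = if S = T then (b S) ^ 2 * 2 ^ n else 0 := by
    intro T _
    rw [← Finset.mul_sum, sum_chi_mul_chi]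
    by_cases h : S = T
    · subst h; simp; ring
    · simp [h]
  rw [Finset.sum_congr rfl h2, Finset.sum_ite_eq, if_pos hS]
  ring

/-- Cauchy-Schwarz against a combination of distinct characters. -/
lemma sum_sgnF_mul_comb_le {n : ℕ} (f : Cube n → Bool) (𝒮 : Finset (Finset (Fin n)))
    (b : Finset (Fin n) → ℝ) :
    ∑ x : Cube n, sgnF f x * (∑ S ∈ 𝒮, b S * chi S x)
      ≤ 2 ^ n * Real.sqrt (∑ S ∈ 𝒮, (b S) ^ 2) := by
  have hCS : (∑ x : Cube n, sgnF f x * (∑ S ∈ 𝒮, b S * chi S x)) ^ 2 ≤
      (∑ x : Cube n, sgnF f x ^ 2) * (∑ x : Cube n, (∑ S ∈ 𝒮, b S * chi S x) ^ 2) :=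
    Finset.sum_mul_sq_le_sq_mul_sq _ _ _
  have h5 : (∑ x : Cube n, sgnF f x * (∑ S ∈ 𝒮, b S * chi S x)) ^ 2
      ≤ (2 ^ n * Real.sqrt (∑ S ∈ 𝒮, (b S) ^ 2)) ^ 2 := by
    rw [mul_pow, Real.sq_sqrt (Finset.sum_nonneg (fun S _ => sq_nonneg _))]
    calc _ ≤ _ := hCS
      _ = _ := by rw [sum_sgnF_sq, sum_sq_chi_comb]; ring
  exact le_of_sq_le_sq h5 (by positivity)

end Vale.Agent.Helper21.PTF
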